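import Vale.Agent.N129X.Final

open Cardinal Vale.Agent.P129Z.S Vale.Agent.N129 Vale.Agent.N129X

namespace Vale.Agent.Results.P129.A0SigmaIdeal

universe u

/-- (1) If some set of `ℵ₁` reals is not meagre, then there is an infinite-dimensional Asplund
space, with dual of density at most `ℵ₁`, in which the closed span of countably many closed
subspaces of infinite codimension always has infinite codimension.

(2) A Banach space with this last property has no separable infinite-dimensional quotient and no
quasi-complementary pair of infinite-dimensional subspaces, and its quotients have the property.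

(3) If it is complex, every operator on it is a scalar plus a strictly cosingular operator. -/
theorem result :
    (∀ (𝕜 : Type) [RCLike 𝕜], (∃ S : Set ℝ, #S = ℵ₁ ∧ ¬ IsMeagre S) →
      ∃ (X : Type u) (_ : NormedAddCommGroup X) (_ : NormedSpace 𝕜 X), CompleteSpace X ∧
        ¬ FiniteDimensional 𝕜 X ∧ @IsAsplund X _ (NormedSpace.restrictScalars ℝ 𝕜 X) ∧
        SmallDual 𝕜 X ∧ SigmaCodim 𝕜 X) ∧
    (∀ (𝕜 : Type) [RCLike 𝕜] (X : Type u) [NormedAddCommGroup X] [NormedSpace 𝕜 X]
      [CompleteSpace X], SigmaCodim 𝕜 X →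
        ¬ HasSeparableQuotient 𝕜 X ∧ NoQuasiCompl 𝕜 X ∧ QuotSigma 𝕜 X) ∧
    (∀ (X : Type u) [NormedAddCommGroup X] [NormedSpace ℂ X] [CompleteSpace X],
      SigmaCodim ℂ X → FewOperators ℂ X) :=
  ⟨fun 𝕜 _ => (sigma_iff 𝕜).1, consequences, fun _ _ _ _ h => h.noDense.operators⟩

end Vale.Agent.Results.P129.A0SigmaIdeal
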